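import Mathlib

/-!
# P193: finite stack machines with one operation per step, and their history extension

`Prog` is a finite-state machine on finitely many stacks that pushes, reads or pops one symbol
per step.  Every step is determined by the state and at most one top symbol; the history
extension `hstep` records that pair and is injective.
-/

namespace Vale.Agent.P193.Machine

/-- One operation. -/
inductive Act (κ Sym Q : Type) : Type where
  | push (k : κ) (a : Sym) (q : Q)
  | read (k : κ) (next : Option Sym → Q)
  | pop (k : κ) (next : Option Sym → Q)
  | jump (q : Q)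
  | stop

/-- A program assigns one operation to every state. -/
abbrev Prog (κ Sym Q : Type) : Type := Q → Act κ Sym Q

variable {κ Sym Q : Type} [DecidableEq κ]

/-- A configuration: state and stacks. -/
abbrev Conf (κ Sym Q : Type) : Type := Q × (κ → List Sym)

/-- The symbol inspected in a configuration. -/
def seen (P : Prog κ Sym Q) (c : Conf κ Sym Q) : Option Sym :=
  match P c.1 with
  | .read k _ => (c.2 k).head?
  | .pop k _ => (c.2 k).head?
  | _ => none

/-- One step. -/
def step (P : Prog κ Sym Q) (c : Conf κ Sym Q) : Option (Conf κ Sym Q) :=
  match P c.1 with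
  | .push k a q => some (q, Function.update c.2 k (a :: c.2 k))
  | .read k next => some (next (c.2 k).head?, c.2)
  | .pop k next => some (next (c.2 k).head?, Function.update c.2 k (c.2 k).tail)
  | .jump q => some (q, c.2)
  | .stop => none

/-- `Run P c c'`: `c'` is reached from `c` in finitely many steps. -/
def Run (P : Prog κ Sym Q) : Conf κ Sym Q → Conf κ Sym Q → Prop :=
  Relation.ReflTransGen fun a b => step P a = some b

lemma Run.head {P : Prog κ Sym Q} {a b c : Conf κ Sym Q} (h : step P a = some b)
    (h' : Run P b c) : Run P a c :=
  Relation.ReflTransGen.head h h'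

/-- A configuration with history. -/
abbrev HConf (κ Sym Q : Type) : Type := Conf κ Sym Q × List (Q × Option Sym)

/-- One step of the history extension. -/
def hstep (P : Prog κ Sym Q) (c : HConf κ Sym Q) : Option (HConf κ Sym Q) :=
  (step P c.1).map fun c' => (c', (c.1.1, seen P c.1) :: c.2)

/-- The history extension is injective. -/
lemma hstep_inj (P : Prog κ Sym Q) {a b c : HConf κ Sym Q} (ha : hstep P a = some c)
    (hb : hstep P b = some c) : a = b := by
  obtain ⟨⟨qa, Sa⟩, la⟩ := a
  obtain ⟨⟨qb, Sb⟩, lb⟩ := b
  simp only [hstep, Option.map_eq_some_iff] at ha hb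
  obtain ⟨ca, ha, rfl⟩ := ha
  obtain ⟨cb, hb, he⟩ := hb
  simp only [Prod.mk.injEq, List.cons.injEq] at he
  obtain ⟨rfl, ⟨rfl, hs⟩, rfl⟩ := he
  cases hP : P qb with
  | push k x q =>
    simp only [step, hP, Option.some.injEq] at ha hb
    have h := congrArg Prod.snd (ha.trans hb.symm)
    simp only at h
    have hk := congrFun h k
    simp only [Function.update_self, List.cons.injEq, true_and] at hk
    have : Sa = Sb := funext fun j => by
      by_cases hj : j = k
      · subst hj; exact hk
      · simpa [hj] using congrFun h j
    subst this; rfl
  | read k next =>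
    simp only [step, hP, Option.some.injEq] at ha hb
    have h := congrArg Prod.snd (ha.trans hb.symm)
    simp only at h
    subst h; rfl
  | pop k next =>
    simp only [step, hP, Option.some.injEq] at ha hb
    have h := congrArg Prod.snd (ha.trans hb.symm)
    simp only at h
    simp only [seen, hP] at hs
    have hk := congrFun h k
    simp only [Function.update_self] at hk
    have : Sa = Sb := funext fun j => by
      by_cases hj : j = k
      · subst hj
        cases hA : Sa j <;> cases hB : Sb j <;> simp_all
      · simpa [hj] using congrFun h j
    subst this; rfl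
  | jump q =>
    simp only [step, hP, Option.some.injEq] at ha hb
    have h := congrArg Prod.snd (ha.trans hb.symm)
    simp only at h
    subst h; rfl
  | stop => simp [step, hP] at ha

/-- Runs lift to the history extension. -/
lemma Run.lift {P : Prog κ Sym Q} {a b : Conf κ Sym Q} (h : Run P a b)
    (l : List (Q × Option Sym)) :
    ∃ l', Relation.ReflTransGen (fun x y => hstep P x = some y) (a, l) (b, l') := by
  induction h with
  | refl => exact ⟨l, .refl⟩
  | @tail b c _ hbc ih =>
    obtain ⟨l', hl'⟩ := ih
    exact ⟨(b.1, seen P b) :: l', hl'.tail (by simp [hstep, hbc])⟩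

end Vale.Agent.P193.Machine
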