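import Mathlib
import Vale.Agent.P193.Machine.Flat

/-!
# P193: every decidable predicate has a finite stack machine decider

The input is any injective computable numbering, written in binary on the first stack
(`PartrecToTM2.trList [num a]`); the machine always reaches `accept` or `reject`.
-/

open Turing Turing.PartrecToTM2

namespace Vale.Agent.P193.Machine

/-- A partial recursive code deciding `p` on the image of an injective numbering. -/
lemma exists_decider_code {α : Type} [Primcodable α] {num : α → ℕ} (hnum : Computable num)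
    (hinj : Function.Injective num) {p : α → Prop} (hp : ComputablePred p) :
    ∃ c : ToPartrec.Code, ∀ a, (p a → c.eval [num a] = Part.some [1]) ∧
      (¬ p a → c.eval [num a] = Part.some [0]) := by
  classical
  obtain ⟨f, hf, rfl⟩ := ComputablePred.computable_iff.1 hp
  let test : ℕ → ℕ → Option ℕ := fun n k =>
    Option.casesOn (motive := fun _ => Option ℕ) (Encodable.decode (α := α) k) none fun a =>
      bif decide (num a = n) then some (bif f a then 1 else 0) else none
  have ht : Computable₂ test := by
    show Computable fun x : ℕ × ℕ => test x.1 x.2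
    refine Computable.option_casesOn (Computable.decode.comp Computable.snd)
      (Computable.const none) ?_
    refine Computable.cond ?_ ?_ (Computable.const none)
    · exact (Primrec.eq.decide.to_comp).comp
        (hnum.comp Computable.snd) (Computable.fst.comp Computable.fst)
    · exact Computable.option_some.comp
        (Computable.cond (hf.comp Computable.snd) (Computable.const 1) (Computable.const 0))
  have hv : Nat.Partrec' fun v : List.Vector ℕ 1 => Nat.rfindOpt (test v.head) :=
    Nat.Partrec'.part_iff₁.2 (Partrec.rfindOpt ht)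
  obtain ⟨c, hc⟩ := ToPartrec.Code.exists_code hv
  refine ⟨c, fun a => ?_⟩
  have hmem : (bif f a then 1 else 0) ∈ Nat.rfindOpt (test (num a)) := by
    have huniq : ∀ k b, b ∈ test (num a) k → b = (bif f a then 1 else 0) := by
      intro k b hb
      simp only [test] at hb
      cases hd : Encodable.decode (α := α) k with
      | none => simp [hd] at hb
      | some a' =>
        by_cases he : num a' = num a
        · simp only [hd, he, decide_true, cond_true, Option.mem_def, Option.some.injEq] at hb
          rw [← hb, hinj he]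
        · simp [hd, he] at hb
    have hex : ∃ k b, b ∈ test (num a) k :=
      ⟨Encodable.encode a, bif f a then 1 else 0, by simp [test]⟩
    obtain ⟨b, hb⟩ := Part.dom_iff_mem.1 (Nat.rfindOpt_dom.2 hex)
    obtain ⟨k, hk⟩ := Nat.rfindOpt_spec hb
    rwa [← huniq k b hk]
  have h1 := hc ⟨[num a], rfl⟩
  simp only [List.Vector.head] at h1
  rw [Part.eq_some_iff.2 hmem] at h1
  constructor <;> intro h <;> simp_all

/-- The accessible statements of the machine of a code. -/
abbrev St (c : ToPartrec.Code) : Type :=
  {s : Option Stmt' // s ∈ TM2.stmts tr (codeSupp c Cont'.halt)}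

/-- States of the flat machine: a statement and the local variable, or a verdict. -/
abbrev FState (c : ToPartrec.Code) : Type := (St c × Option Γ') ⊕ Bool

section Sub

variable {K : Type} {Γ : K → Type} {Λ σ : Type}

/-- `IsSub q q'`: `q'` is an immediate substatement of `q`. -/
def IsSub : TM2.Stmt Γ Λ σ → TM2.Stmt Γ Λ σ → Prop
  | .push _ _ q, q' => q' = q
  | .peek _ _ q, q' => q' = q
  | .pop _ _ q, q' => q' = q
  | .load _ q, q' => q' = q
  | .branch _ q₁ q₂, q' => q' = q₁ ∨ q' = q₂
  | _, _ => False

lemma sub_self (q q' : TM2.Stmt Γ Λ σ) (h : IsSub q q') : q' ∈ TM2.stmts₁ q := by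
  classical
  cases q with
  | branch f q₁ q₂ =>
    rw [TM2.stmts₁]
    rcases h with rfl | rfl
    · exact Finset.mem_insert_of_mem (Finset.mem_union_left _ TM2.stmts₁_self)
    · exact Finset.mem_insert_of_mem (Finset.mem_union_right _ TM2.stmts₁_self)
  | goto l => exact h.elim
  | halt => exact h.elim
  | push k f q => rw [TM2.stmts₁]; subst h; exact Finset.mem_insert_of_mem TM2.stmts₁_self
  | peek k f q => rw [TM2.stmts₁]; subst h; exact Finset.mem_insert_of_mem TM2.stmts₁_self
  | pop k f q => rw [TM2.stmts₁]; subst h; exact Finset.mem_insert_of_mem TM2.stmts₁_self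
  | load a q => rw [TM2.stmts₁]; subst h; exact Finset.mem_insert_of_mem TM2.stmts₁_self

end Sub

variable (c : ToPartrec.Code)

lemma sub_mem {q q' : Stmt'} (hs : some q ∈ TM2.stmts tr (codeSupp c Cont'.halt))
    (h : q' ∈ TM2.stmts₁ q) : some q' ∈ TM2.stmts tr (codeSupp c Cont'.halt) :=
  TM2.stmts_trans h hs

lemma goto_mem {l : Option Γ' → Λ'} (hs : some (TM2.Stmt.goto l : Stmt') ∈
      TM2.stmts tr (codeSupp c Cont'.halt)) (v : Option Γ') :
    some (tr (l v)) ∈ TM2.stmts tr (codeSupp c Cont'.halt) := by
  classical
  have h := @TM2.stmts_supportsStmt _ _ _ _ ⟨trNormal c Cont'.halt⟩ _ _ _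
    (tr_supports c Cont'.halt) hs v
  exact Finset.some_mem_insertNone.2 (Finset.mem_biUnion.2 ⟨_, h, TM2.stmts₁_self⟩)

/-- The operation of a statement with its local variable. -/
noncomputable def stAct : (s : Option Stmt') → s ∈ TM2.stmts tr (codeSupp c Cont'.halt) →
    Option Γ' → Act K' Γ' (FState c)
  | none, _, _ => .stop
  | some (TM2.Stmt.push k f q), h, v =>
    .push k (f v) (.inl (⟨some q, sub_mem c h (sub_self _ _ (by simp [IsSub]))⟩, v))
  | some (TM2.Stmt.peek k f q), h, v =>
    .read k fun o => .inl (⟨some q, sub_mem c h (sub_self _ _ (by simp [IsSub]))⟩, f v o)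
  | some (TM2.Stmt.pop k f q), h, v =>
    .pop k fun o => .inl (⟨some q, sub_mem c h (sub_self _ _ (by simp [IsSub]))⟩, f v o)
  | some (TM2.Stmt.load a q), h, v =>
    .jump (.inl (⟨some q, sub_mem c h (sub_self _ _ (by simp [IsSub]))⟩, a v))
  | some (TM2.Stmt.branch f q₁ q₂), h, v =>
    .jump (bif f v
      then .inl (⟨some q₁, sub_mem c h (sub_self _ _ (by simp [IsSub]))⟩, v)
      else .inl (⟨some q₂, sub_mem c h (sub_self _ _ (by simp [IsSub]))⟩, v))
  | some (TM2.Stmt.goto l), h, v => .jump (.inl (⟨some (tr (l v)), goto_mem c h v⟩, v))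
  | some TM2.Stmt.halt, _, _ => .read K'.main fun o => .inr (decide (o = some Γ'.bit1))

/-- The flat program of a code. -/
noncomputable def prog : Prog K' Γ' (FState c)
  | .inl (s, v) => stAct c s.1 s.2 v
  | .inr _ => .stop

lemma start_mem : some (tr (trNormal c Cont'.halt)) ∈ TM2.stmts tr (codeSupp c Cont'.halt) := by
  classical
  exact Finset.some_mem_insertNone.2
    (Finset.mem_biUnion.2 ⟨_, codeSupp_self _ _ (trStmts₁_self _), TM2.stmts₁_self⟩)

lemma run_aux : ∀ (q : Stmt') (h : some q ∈ TM2.stmts tr (codeSupp c Cont'.halt))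
    (v : Option Γ') (S : K' → List Γ'),
    (∀ l, (TM2.stepAux q v S).l = some l →
      ∃ hl, Run (prog c) (.inl (⟨some q, h⟩, v), S)
        (.inl (⟨some (tr l), hl⟩, (TM2.stepAux q v S).var), (TM2.stepAux q v S).stk)) ∧
    ((TM2.stepAux q v S).l = none → Run (prog c) (.inl (⟨some q, h⟩, v), S)
      (.inr (decide (((TM2.stepAux q v S).stk K'.main).head? = some Γ'.bit1)),
        (TM2.stepAux q v S).stk)) := by
  intro q
  induction q with
  | push k f q ih =>
    intro h v S
    have hr := ih (sub_mem c h (sub_self _ _ (by simp [IsSub]))) v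
      (Function.update S k (f v :: S k))
    exact ⟨fun l hl => (hr.1 l hl).imp fun _ h' => Run.head rfl h',
      fun hl => Run.head rfl (hr.2 hl)⟩
  | peek k f q ih =>
    intro h v S
    have hr := ih (sub_mem c h (sub_self _ _ (by simp [IsSub]))) (f v (S k).head?) S
    exact ⟨fun l hl => (hr.1 l hl).imp fun _ h' => Run.head rfl h',
      fun hl => Run.head rfl (hr.2 hl)⟩
  | pop k f q ih =>
    intro h v S
    have hr := ih (sub_mem c h (sub_self _ _ (by simp [IsSub]))) (f v (S k).head?)
      (Function.update S k (S k).tail)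
    exact ⟨fun l hl => (hr.1 l hl).imp fun _ h' => Run.head rfl h',
      fun hl => Run.head rfl (hr.2 hl)⟩
  | load a q ih =>
    intro h v S
    have hr := ih (sub_mem c h (sub_self _ _ (by simp [IsSub]))) (a v) S
    exact ⟨fun l hl => (hr.1 l hl).imp fun _ h' => Run.head rfl h',
      fun hl => Run.head rfl (hr.2 hl)⟩
  | branch f q₁ q₂ ih₁ ih₂ =>
    intro h v S
    cases hf : f v
    · have hr := ih₂ (sub_mem c h (sub_self _ _ (by simp [IsSub]))) v S
      simp only [TM2.stepAux, hf, cond_false]
      exact ⟨fun l hl => (hr.1 l hl).imp fun _ h' => Run.head (by simp [step, prog, stAct, hf]) h',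
        fun hl => Run.head (by simp [step, prog, stAct, hf]) (hr.2 hl)⟩
    · have hr := ih₁ (sub_mem c h (sub_self _ _ (by simp [IsSub]))) v S
      simp only [TM2.stepAux, hf, cond_true]
      exact ⟨fun l hl => (hr.1 l hl).imp fun _ h' => Run.head (by simp [step, prog, stAct, hf]) h',
        fun hl => Run.head (by simp [step, prog, stAct, hf]) (hr.2 hl)⟩
  | goto f =>
    intro h v S
    refine ⟨fun l hl => ?_, fun hl => by simp at hl⟩
    simp only [TM2.stepAux, Option.some.injEq] at hl
    subst hl
    exact ⟨goto_mem c h v, Run.head rfl .refl⟩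
  | halt =>
    intro h v S
    exact ⟨fun l hl => by simp at hl, fun _ => Run.head rfl .refl⟩

lemma run_reaches {a : TM2.Cfg (fun _ : K' => Γ') Λ' (Option Γ')}
    {b : TM2.Cfg (fun _ : K' => Γ') Λ' (Option Γ')}
    (h : TM2.Reaches tr a b) (hb : b.l = none) :
    ∀ l, a.l = some l → ∀ hl : some (tr l) ∈ TM2.stmts tr (codeSupp c Cont'.halt),
      Run (prog c) (.inl (⟨some (tr l), hl⟩, a.var), a.stk)
        (.inr (decide ((b.stk K'.main).head? = some Γ'.bit1)), b.stk) := by
  induction h using Relation.ReflTransGen.head_induction_on with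
  | refl => intro l hl; rw [hb] at hl; cases hl
  | @head a a' haa' hrest ih =>
    intro l hl hmem
    obtain ⟨al, av, aS⟩ := a
    subst hl
    simp only [TM2.step, Option.mem_def, Option.some.injEq] at haa'
    have hr := run_aux c (tr l) hmem av aS
    subst haa'
    cases hl' : (TM2.stepAux (tr l) av aS).l with
    | none =>
      have hend : TM2.stepAux (tr l) av aS = b := by
        rcases Relation.ReflTransGen.cases_head hrest with h | ⟨x, hx, _⟩
        · exact h
        · revert hx hl'
          generalize TM2.stepAux (tr l) av aS = y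
          obtain ⟨yl, yv, yS⟩ := y
          intro hl' hx
          simp only at hl'
          subst hl'
          simp [TM2.step] at hx
      rw [← hend]
      exact hr.2 hl'
    | some l' =>
      obtain ⟨hl'', h'⟩ := hr.1 l' hl'
      exact h'.trans (ih l' hl' hl'')

/-- Every decidable predicate has a finite stack machine deciding it from the binary form of any
injective computable numbering. -/
theorem exists_machine {α : Type} [Primcodable α] {num : α → ℕ} (hnum : Computable num)
    (hinj : Function.Injective num) {p : α → Prop} (hp : ComputablePred p) :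
    ∃ (Q : Type) (_ : Fintype Q) (_ : DecidableEq Q) (P : Prog K' Γ' Q) (q₀ accept reject : Q),
      accept ≠ reject ∧ P accept = .stop ∧ P reject = .stop ∧
      ∀ a, (p a → ∃ S, Run P (q₀, K'.elim (trList [num a]) [] [] []) (accept, S)) ∧
        (¬ p a → ∃ S, Run P (q₀, K'.elim (trList [num a]) [] [] []) (reject, S)) := by
  classical
  obtain ⟨c, hc⟩ := exists_decider_code hnum hinj hp
  have hfin : Finite (St c) := (TM2.stmts tr (codeSupp c Cont'.halt)).finite_toSet.to_subtype
  refine ⟨FState c, Fintype.ofFinite _, Classical.decEq _, prog c,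
    .inl (⟨_, start_mem c⟩, none), .inr true, .inr false, by simp, rfl, rfl, fun a => ?_⟩
  have key : ∀ n : ℕ, c.eval [num a] = Part.some [n] →
      ∃ S, Run (prog c) (.inl (⟨_, start_mem c⟩, none), K'.elim (trList [num a]) [] [] [])
        (.inr (decide ((trList [n]).head? = some Γ'.bit1)), S) := by
    intro n hn
    have hmem : halt [n] ∈ StateTransition.eval (TM2.step tr) (init c [num a]) := by
      rw [tr_eval, hn, Part.map_eq_map, Part.map_some]; exact Part.mem_some _
    have hreach := (StateTransition.mem_eval.1 hmem).1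
    exact ⟨_, run_reaches c hreach rfl (trNormal c Cont'.halt) rfl (start_mem c)⟩
  constructor
  · intro h
    obtain ⟨S, hS⟩ := key 1 ((hc a).1 h)
    exact ⟨S, by simpa [trList, trNat, trNum, trPosNum] using hS⟩
  · intro h
    obtain ⟨S, hS⟩ := key 0 ((hc a).2 h)
    exact ⟨S, by simpa [trList] using hS⟩

end Vale.Agent.P193.Machine
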