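import Mathlib
import Vale.Agent.P193.Machine.Decider

/-!
# P193: words as the raw input of the decider

A letter `i` is written `bit0^i bit1`; this is the binary expansion of a computable injective
numbering, so every decidable set of words has a stack machine reading that input.
-/

open Turing Turing.PartrecToTM2

namespace Vale.Agent.P193.Machine

/-- The block of a letter. -/
def block (i : ℕ) : List Γ' := List.replicate i Γ'.bit0 ++ [Γ'.bit1]

/-- The number of a word. -/
def wordNum : List ℕ → ℕ
  | [] => 0
  | i :: w => 2 ^ i * (2 * wordNum w + 1)

lemma trNat_odd (n : ℕ) : trNat (2 * n + 1) = Γ'.bit1 :: trNat n := by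
  rcases h : (n : Num) with _ | p
  · have hn : n = 0 := by
      have := congrArg (fun x : Num => (x : ℕ)) h
      simpa using this
    subst hn; rfl
  · have e : ((2 * n + 1 : ℕ) : Num) = Num.pos p.bit1 := by
      have hn : ((Num.pos p : Num) : ℕ) = n := by rw [← h]; exact Num.to_of_nat n
      apply Num.to_nat_inj.1
      rw [Num.to_of_nat, Num.cast_pos, PosNum.cast_bit1]
      rw [Num.cast_pos] at hn
      omega
    simp [trNat, h, e, trNum, trPosNum]

lemma trNat_even (n : ℕ) (hn : n ≠ 0) : trNat (2 * n) = Γ'.bit0 :: trNat n := by
  rcases h : (n : Num) with _ | p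
  · exact absurd (by simpa using congrArg (fun x : Num => (x : ℕ)) h) hn
  · have e : ((2 * n : ℕ) : Num) = Num.pos p.bit0 := by
      have hn' : ((Num.pos p : Num) : ℕ) = n := by rw [← h]; exact Num.to_of_nat n
      apply Num.to_nat_inj.1
      rw [Num.to_of_nat, Num.cast_pos, PosNum.cast_bit0]
      rw [Num.cast_pos] at hn'
      omega
    simp [trNat, h, e, trNum, trPosNum]

lemma trNat_wordNum : ∀ w : List ℕ, trNat (wordNum w) = w.flatMap block
  | [] => by simp [wordNum]
  | i :: w => by
    rw [List.flatMap_cons, ← trNat_wordNum w, wordNum]
    induction i with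
    | zero => simp [block, trNat_odd]
    | succ i ih =>
      rw [pow_succ', mul_assoc, trNat_even _ (by positivity), ih]
      simp [block, List.replicate_succ]

lemma wordNum_injective : Function.Injective wordNum := by
  intro u w h
  have h' : u.flatMap block = w.flatMap block := by rw [← trNat_wordNum, ← trNat_wordNum, h]
  clear h
  induction u generalizing w with
  | nil => cases w <;> simp_all [block]
  | cons i u ih =>
    rcases w with _ | ⟨j, w⟩
    · simp [block] at h'
    · simp only [List.flatMap_cons, block, List.append_assoc, List.singleton_append] at h'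
      have key : ∀ (a b : ℕ) (x y : List Γ'), List.replicate a Γ'.bit0 ++ Γ'.bit1 :: x =
          List.replicate b Γ'.bit0 ++ Γ'.bit1 :: y → a = b ∧ x = y := by
        intro a
        induction a with
        | zero => intro b x y hxy; cases b <;> simp_all [List.replicate_succ]
        | succ a iha =>
          intro b x y hxy
          cases b with
          | zero => simp [List.replicate_succ] at hxy
          | succ b =>
            simp only [List.replicate_succ, List.cons_append, List.cons.injEq, true_and] at hxy
            exact (iha b x y hxy).imp_left (congrArg (· + 1))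
      obtain ⟨rfl, hxy⟩ := key _ _ _ _ h'
      rw [ih hxy]

lemma computable_wordNum : Computable wordNum := by
  have h : Primrec fun w : List ℕ => w.foldr (fun i r => 2 ^ i * (2 * r + 1)) 0 := by
    refine Primrec.list_foldr (f := fun w : List ℕ => w) (g := fun _ => 0)
      (h := fun _ (x : ℕ × ℕ) => 2 ^ x.1 * (2 * x.2 + 1)) Primrec.id (Primrec.const 0) ?_
    have hfst : Primrec fun x : List ℕ × ℕ × ℕ => x.2.1 := Primrec.fst.comp Primrec.snd
    have hsnd : Primrec fun x : List ℕ × ℕ × ℕ => x.2.2 := Primrec.snd.comp Primrec.snd
    exact Primrec.nat_mul.comp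
      ((Primrec₂.unpaired'.1 Nat.Primrec.pow).comp (Primrec.const 2) hfst)
      (Primrec.succ.comp (Primrec.nat_mul.comp (Primrec.const 2) hsnd))
  have e : wordNum = fun w : List ℕ => w.foldr (fun i r => 2 ^ i * (2 * r + 1)) 0 := by
    funext w
    induction w with
    | nil => rfl
    | cons i w ih => simp [wordNum, ih]
  rw [e]
  exact h.to_comp

/-- The input configuration of a word. -/
def wordInput (w : List ℕ) : K' → List Γ' := K'.elim (w.flatMap block ++ [Γ'.cons]) [] [] []

/-- Every decidable set of words has a finite stack machine reading the words in unary blocks. -/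
theorem exists_word_machine {m : ℕ} {p : List (Fin m) → Prop} (hp : ComputablePred p) :
    ∃ (Q : Type) (_ : Fintype Q) (_ : DecidableEq Q) (P : Prog K' Γ' Q) (q₀ accept reject : Q),
      accept ≠ reject ∧ P accept = .stop ∧ P reject = .stop ∧
      ∀ w : List (Fin m), (p w → ∃ S, Run P (q₀, wordInput (w.map Fin.val)) (accept, S)) ∧
        (¬ p w → ∃ S, Run P (q₀, wordInput (w.map Fin.val)) (reject, S)) := by
  have hnum : Computable fun w : List (Fin m) => wordNum (w.map Fin.val) :=
    computable_wordNum.comp
      ((Primrec.list_map (f := fun w : List (Fin m) => w) (g := fun _ i => (i : ℕ)) Primrec.id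
        (Primrec.fin_val.comp Primrec.snd).to₂).to_comp)
  have hinj : Function.Injective fun w : List (Fin m) => wordNum (w.map Fin.val) :=
    fun u w h => (List.map_injective_iff.mpr Fin.val_injective) (wordNum_injective h)
  simpa [wordInput, trList, trNat_wordNum] using exists_machine hnum hinj hp

end Vale.Agent.P193.Machine
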