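import Vale.Agent.P193.Machine.Numbering

/-!
# P193: the restart machine

From a start configuration the machine guesses REAL (set the bit, run the decider) or LOAD (clear
the input, load arbitrary stacks and any decider state). Every working step pushes a filler on the
track `T = (bit, n)`, and waiting is allowed. A halted decider cleans its stacks, pops the
fillers, and reaches a final configuration only if the bit is real.
Each rule is a partial injection given by top symbols, so a run is a list of rules.
-/

open Turing Turing.PartrecToTM2

namespace Vale.Agent.P193.Machine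

instance fintypeStack : Fintype K' :=
  ⟨{K'.main, K'.rev, K'.aux, K'.stack}, fun k => by cases k <;> simp⟩

/-- Phases of the restart machine. -/
inductive Phase (Q : Type) : Type where
  | start
  | clear
  | load
  | run (q : Q)
  | clean (v : Bool)
  | pop (v : Bool)
  | final (v : Bool)
  deriving DecidableEq, Fintype

/-- A configuration: phase, work stacks, bit and number of fillers. -/
@[ext] structure RConf (Q : Type) : Type where
  /-- the phase -/
  ph : Phase Q
  /-- the work stacks -/
  stk : K' → List Γ'
  /-- real (`true`) or loaded (`false`) -/
  bit : Bool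
  /-- the number of fillers -/
  n : ℕ

/-- The names of the rules. -/
inductive RRule (Q : Type) : Type where
  | real
  | sand
  | clearPop (a : Γ')
  | clearDone
  | loadPush (k : K') (a : Γ')
  | loadGo (q : Q)
  | exec (q : Q) (o : Option Γ')
  | wait (ph : Phase Q)
  | halt (v : Bool)
  | cleanPop (v : Bool) (k : K') (a : Γ')
  | cleanDone (v : Bool)
  | popFiller (v : Bool)
  | popBit (v : Bool)
  deriving DecidableEq, Fintype

/-- The phases in which the machine may wait. -/
def Phase.working {Q : Type} : Phase Q → Bool
  | .clear => true
  | .load => true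
  | .run _ => true
  | .clean _ => true
  | _ => false

/-- The phase in which a rule applies. -/
def RRule.src {Q : Type} (verdict : Bool → Q) : RRule Q → Phase Q
  | .real => .start
  | .sand => .start
  | .clearPop _ => .clear
  | .clearDone => .clear
  | .loadPush _ _ => .load
  | .loadGo _ => .load
  | .exec q _ => .run q
  | .wait ph => ph
  | .halt v => .run (verdict v)
  | .cleanPop v _ _ => .clean v
  | .cleanDone v => .clean v
  | .popFiller v => .pop v
  | .popBit v => .pop v

variable {Q : Type} [DecidableEq Q] (P : Prog K' Γ' Q) (q₀ : Q) (verdict : Bool → Q)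

/-- The phase after a rule. -/
def rtgt : RRule Q → Phase Q
  | .real => .run q₀
  | .sand => .clear
  | .clearPop _ => .clear
  | .clearDone => .load
  | .loadPush _ _ => .load
  | .loadGo q => .run q
  | .exec q o =>
    match P q with
    | .push _ _ q' => .run q'
    | .read _ next => .run (next o)
    | .pop _ next => .run (next o)
    | .jump q' => .run q'
    | .stop => .run q
  | .wait ph => ph
  | .halt v => .clean v
  | .cleanPop v _ _ => .clean v
  | .cleanDone v => .pop v
  | .popFiller v => .pop v
  | .popBit v => .final v

/-- The top symbols required by a rule. -/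
def rguard : RRule Q → K' → Option (Option Γ')
  | .clearPop a => Function.update (fun _ => none) K'.main (some (some a))
  | .clearDone => fun _ => some none
  | .exec q o =>
    match P q with
    | .read k _ => Function.update (fun _ => none) k (some o)
    | .pop k _ => Function.update (fun _ => none) k (some o)
    | _ => fun _ => none
  | .cleanPop _ k a => Function.update (fun _ => none) k (some (some a))
  | .cleanDone _ => fun _ => some none
  | _ => fun _ => none

/-- Whether a rule may be used at all. -/
def rlegal : RRule Q → Bool
  | .exec q o =>
    match P q with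
    | .read _ _ => true
    | .pop _ _ => true
    | .push _ _ _ => o.isNone
    | .jump _ => o.isNone
    | .stop => false
  | .wait ph => ph.working
  | _ => true

/-- The effect of a rule on the work stacks. -/
def reff : RRule Q → (K' → List Γ') → K' → List Γ'
  | .clearPop _, S => Function.update S K'.main (S K'.main).tail
  | .loadPush k a, S => Function.update S k (a :: S k)
  | .exec q _, S =>
    match P q with
    | .push k a _ => Function.update S k (a :: S k)
    | .pop k _ => Function.update S k (S k).tail
    | _ => S
  | .cleanPop _ k _, S => Function.update S k (S k).tail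
  | _, S => S

/-- The effect of a rule on the track: `none` if it does not apply. -/
def rtrack : RRule Q → Bool → ℕ → Option (Bool × ℕ)
  | .real, b, n => if b = false ∧ n = 0 then some (true, 0) else none
  | .sand, b, n => if b = false ∧ n = 0 then some (false, 0) else none
  | .popFiller _, b, n => if 0 < n then some (b, n - 1) else none
  | .popBit _, b, n => if b = true ∧ n = 0 then some (false, 0) else none
  | _, b, n => some (b, n + 1)

/-- A configuration matches a list of required top symbols. -/
def Matches (g : K' → Option (Option Γ')) (S : K' → List Γ') : Prop :=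
  ∀ k, ∀ o, g k = some o → (S k).head? = o

open Classical in
/-- One step by a named rule. -/
noncomputable def rstep (r : RRule Q) (c : RConf Q) : Option (RConf Q) :=
  if c.ph = r.src verdict ∧ rlegal P r = true ∧ Matches (rguard P r) c.stk then
    (rtrack r c.bit c.n).map fun t => ⟨rtgt P q₀ r, reff P r c.stk, t.1, t.2⟩
  else none

/-- Running a list of rules, left to right. -/
noncomputable def rpath : List (RRule Q) → RConf Q → Option (RConf Q)
  | [], c => some c
  | r :: l, c => (rstep P q₀ verdict r c).bind (rpath l)

lemma rpath_append (l l' : List (RRule Q)) (c : RConf Q) :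
    rpath P q₀ verdict (l ++ l') c = (rpath P q₀ verdict l c).bind (rpath P q₀ verdict l') := by
  induction l generalizing c with
  | nil => rfl
  | cons r l ih =>
    simp only [List.cons_append, rpath]
    rcases rstep P q₀ verdict r c with _ | d <;> simp [ih]

/-- `c'` is reached from `c` by some list of rules. -/
def RReach (c c' : RConf Q) : Prop := ∃ l, rpath P q₀ verdict l c = some c'

lemma RReach.refl (c : RConf Q) : RReach P q₀ verdict c c := ⟨[], rfl⟩

lemma RReach.trans {a b c : RConf Q} (h : RReach P q₀ verdict a b)
    (h' : RReach P q₀ verdict b c) : RReach P q₀ verdict a c := by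
  obtain ⟨l, hl⟩ := h
  obtain ⟨l', hl'⟩ := h'
  exact ⟨l ++ l', by simp [rpath_append, hl, hl']⟩

lemma RReach.single {r : RRule Q} {a b : RConf Q} (h : rstep P q₀ verdict r a = some b) :
    RReach P q₀ verdict a b := ⟨[r], by simp [rpath, h]⟩

lemma rstep_some {r : RRule Q} {c : RConf Q} {t : Bool × ℕ} (h1 : c.ph = r.src verdict)
    (h2 : rlegal P r = true) (h3 : Matches (rguard P r) c.stk)
    (h4 : rtrack r c.bit c.n = some t) :
    rstep P q₀ verdict r c = some ⟨rtgt P q₀ r, reff P r c.stk, t.1, t.2⟩ := by
  rw [rstep, if_pos ⟨h1, h2, h3⟩, h4]; rfl

lemma rstep_eq_some_iff {r : RRule Q} {c d : RConf Q} :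
    rstep P q₀ verdict r c = some d ↔ c.ph = r.src verdict ∧ rlegal P r = true ∧
      Matches (rguard P r) c.stk ∧ ∃ t, rtrack r c.bit c.n = some t ∧
        d = ⟨rtgt P q₀ r, reff P r c.stk, t.1, t.2⟩ := by
  constructor
  · intro h
    rw [rstep] at h
    split at h
    · obtain ⟨t, ht, rfl⟩ := Option.map_eq_some_iff.1 h
      exact ⟨‹_ ∧ _ ∧ _›.1, ‹_ ∧ _ ∧ _›.2.1, ‹_ ∧ _ ∧ _›.2.2, t, ht, rfl⟩
    · simp at h
  · rintro ⟨h1, h2, h3, t, ht, rfl⟩
    exact rstep_some P q₀ verdict h1 h2 h3 ht

/-! ### Every rule is a partial injection -/

lemma update_tail_inj {g : K' → Option (Option Γ')} {S S' : K' → List Γ'} {k : K'}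
    {o : Option Γ'} (hg : g k = some o) (hS : Matches g S) (hS' : Matches g S')
    (h : Function.update S k (S k).tail = Function.update S' k (S' k).tail) : S = S' := by
  funext j
  by_cases hj : j = k
  · subst hj
    have h1 := hS j o hg
    have h2 := hS' j o hg
    have h3 := congrFun h j
    simp only [Function.update_self] at h3
    cases o <;> rcases hA : S j with _ | ⟨a, A⟩ <;> rcases hB : S' j with _ | ⟨b, B⟩ <;>
      rw [hA] at h1 h3 <;> rw [hB] at h2 h3 <;> simp_all
  · simpa [Function.update_of_ne hj] using congrFun h j

lemma update_push_inj {S S' : K' → List Γ'} {k : K'} {a : Γ'}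
    (h : Function.update S k (a :: S k) = Function.update S' k (a :: S' k)) : S = S' := by
  funext j
  by_cases hj : j = k
  · subst hj
    simpa using congrFun h j
  · simpa [Function.update_of_ne hj] using congrFun h j

omit [DecidableEq Q] in
lemma rtrack_inj {r : RRule Q} {b b' : Bool} {n n' : ℕ} {t : Bool × ℕ}
    (h : rtrack r b n = some t) (h' : rtrack r b' n' = some t) : b = b' ∧ n = n' := by
  cases r <;> simp only [rtrack, Option.ite_none_right_eq_some, Option.some.injEq] at h h'
  case real => exact ⟨h.1.1.trans h'.1.1.symm, h.1.2.trans h'.1.2.symm⟩
  case sand => exact ⟨h.1.1.trans h'.1.1.symm, h.1.2.trans h'.1.2.symm⟩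
  case popBit => exact ⟨h.1.1.trans h'.1.1.symm, h.1.2.trans h'.1.2.symm⟩
  case popFiller =>
    have e := h.2.trans h'.2.symm
    simp only [Prod.mk.injEq] at e
    exact ⟨e.1, by omega⟩
  all_goals
    have e := h.trans h'.symm
    simp only [Prod.mk.injEq, Nat.add_right_cancel_iff] at e
    exact e

/-- A rule determines the configuration before it from the configuration after it. -/
theorem rstep_inj {r : RRule Q} {c c' d : RConf Q} (h : rstep P q₀ verdict r c = some d)
    (h' : rstep P q₀ verdict r c' = some d) : c = c' := by
  obtain ⟨hp, _, hm, t, ht, rfl⟩ := (rstep_eq_some_iff P q₀ verdict).1 h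
  obtain ⟨hp', _, hm', t', ht', he⟩ := (rstep_eq_some_iff P q₀ verdict).1 h'
  simp only [RConf.mk.injEq, true_and] at he
  obtain ⟨hS, hb, hn⟩ := he
  have htt : rtrack r c.bit c.n = rtrack r c'.bit c'.n := by
    rw [ht, ht', Prod.ext hb hn]
  have hstk : c.stk = c'.stk := by
    cases r with
    | clearPop a => exact update_tail_inj (o := some a) (by simp [rguard]) hm hm' hS
    | cleanPop v k a => exact update_tail_inj (o := some a) (by simp [rguard]) hm hm' hS
    | loadPush k a => exact update_push_inj hS
    | exec q o =>
      simp only [reff] at hS
      simp only [rguard] at hm hm'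
      cases hq : P q with
      | push k a q' => simp only [hq] at hS; exact update_push_inj hS
      | pop k next =>
        simp only [hq] at hS hm hm'
        exact update_tail_inj (o := o) (by simp) hm hm' hS
      | read k next => simpa [hq] using hS
      | jump q' => simpa [hq] using hS
      | stop => simpa [hq] using hS
    | _ => exact hS
  have htr := rtrack_inj ht (ht'.trans (congrArg some (Prod.ext hb hn).symm))
  exact RConf.ext (hp.trans hp'.symm) hstk htr.1 htr.2

end Vale.Agent.P193.Machine
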