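import Vale.Agent.P193.Machine.Restart

/-!
# P193: runs of the restart machine

REAL runs reach the final configuration with the verdict of the decider and no other final
configuration is reachable; LOAD reaches every configuration of the decider once the track is
long enough.
-/

open Turing Turing.PartrecToTM2

namespace Vale.Agent.P193.Machine

variable {Q : Type} [DecidableEq Q] (P : Prog K' Γ' Q) (q₀ : Q) (verdict : Bool → Q)

/-- The start configuration of a word. -/
def startConf (w : List ℕ) : RConf Q := ⟨.start, wordInput w, false, 0⟩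

/-- The final configuration of a verdict. -/
def finalConf (v : Bool) : RConf Q := ⟨.final v, fun _ => [], false, 0⟩

/-- All rules of one step of the decider. -/
lemma rreach_step {q q' : Q} {S S' : K' → List Γ'} (h : step P (q, S) = some (q', S'))
    (b : Bool) (n : ℕ) :
    RReach P q₀ verdict ⟨.run q, S, b, n⟩ ⟨.run q', S', b, n + 1⟩ := by
  cases hq : P q with
  | push k a q1 =>
    simp only [step, hq, Option.some.injEq, Prod.mk.injEq] at h
    obtain ⟨rfl, rfl⟩ := h
    refine RReach.single P q₀ verdict ((rstep_eq_some_iff P q₀ verdict (r := .exec q none)).2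
      ⟨rfl, by simp [rlegal, hq], fun j o => by simp [rguard, hq], (b, n + 1), rfl, ?_⟩)
    simp [rtgt, reff, hq]
  | read k next =>
    simp only [step, hq, Option.some.injEq, Prod.mk.injEq] at h
    obtain ⟨rfl, rfl⟩ := h
    refine RReach.single P q₀ verdict ((rstep_eq_some_iff P q₀ verdict
      (r := .exec q (S k).head?)).2 ⟨rfl, by simp [rlegal, hq], ?_, (b, n + 1), rfl, ?_⟩)
    · intro j o ho
      simp only [rguard, hq] at ho
      by_cases hj : j = k
      · subst hj; simpa using ho
      · simp [Function.update_of_ne hj] at ho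
    · simp [rtgt, reff, hq]
  | pop k next =>
    simp only [step, hq, Option.some.injEq, Prod.mk.injEq] at h
    obtain ⟨rfl, rfl⟩ := h
    refine RReach.single P q₀ verdict ((rstep_eq_some_iff P q₀ verdict
      (r := .exec q (S k).head?)).2 ⟨rfl, by simp [rlegal, hq], ?_, (b, n + 1), rfl, ?_⟩)
    · intro j o ho
      simp only [rguard, hq] at ho
      by_cases hj : j = k
      · subst hj; simpa using ho
      · simp [Function.update_of_ne hj] at ho
    · simp [rtgt, reff, hq]
  | jump q1 =>
    simp only [step, hq, Option.some.injEq, Prod.mk.injEq] at h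
    obtain ⟨rfl, rfl⟩ := h
    refine RReach.single P q₀ verdict ((rstep_eq_some_iff P q₀ verdict (r := .exec q none)).2
      ⟨rfl, by simp [rlegal, hq], fun j o => by simp [rguard, hq], (b, n + 1), rfl, ?_⟩)
    simp [rtgt, reff, hq]
  | stop => simp [step, hq] at h

lemma rreach_run {a a' : Conf K' Γ' Q} (h : Run P a a') (b : Bool) (n : ℕ) :
    ∃ k, RReach P q₀ verdict ⟨.run a.1, a.2, b, n⟩ ⟨.run a'.1, a'.2, b, n + k⟩ := by
  induction h with
  | refl => exact ⟨0, RReach.refl P q₀ verdict _⟩
  | @tail c d _ hcd ih =>
    obtain ⟨k, hk⟩ := ih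
    exact ⟨k + 1, hk.trans P q₀ verdict (rreach_step P q₀ verdict hcd b (n + k))⟩

lemma rreach_wait {ph : Phase Q} (hph : ph.working = true) (S : K' → List Γ') (b : Bool) (n : ℕ) :
    ∀ j, RReach P q₀ verdict ⟨ph, S, b, n⟩ ⟨ph, S, b, n + j⟩
  | 0 => RReach.refl P q₀ verdict _
  | j + 1 => (rreach_wait hph S b n j).trans P q₀ verdict (RReach.single P q₀ verdict
      (rstep_some P q₀ verdict (r := .wait ph) (t := (b, n + j + 1)) rfl hph
        (fun _ o => by simp [rguard]) rfl))

lemma rreach_clean_stack (v : Bool) (k : K') (b : Bool) : ∀ (l : List Γ') (S : K' → List Γ'),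
    S k = l → ∀ n, ∃ j, RReach P q₀ verdict ⟨.clean v, S, b, n⟩
      ⟨.clean v, Function.update S k [], b, n + j⟩
  | [], S, hS, n => ⟨0, by
      rw [← hS, Function.update_eq_self]
      exact RReach.refl P q₀ verdict _⟩
  | a :: l, S, hS, n => by
      obtain ⟨j, hj⟩ := rreach_clean_stack v k b l (Function.update S k l) (by simp) (n + 1)
      refine ⟨j + 1, RReach.trans P q₀ verdict (RReach.single P q₀ verdict
        ((rstep_eq_some_iff P q₀ verdict (r := .cleanPop v k a)).2
          ⟨rfl, rfl, ?_, (b, n + 1), rfl, ?_⟩)) (b := ⟨.clean v, Function.update S k l, b, n + 1⟩)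
        ?_⟩
      · intro i o ho
        simp only [rguard] at ho
        by_cases hi : i = k
        · subst hi
          simp only [Function.update_self, Option.some.injEq] at ho
          simp [hS, ho]
        · simp [Function.update_of_ne hi] at ho
      · simp [rtgt, reff, hS]
      · simpa [Function.update_idem, Nat.add_assoc, Nat.add_comm 1 j] using hj

/-- Clearing all four stacks. -/
lemma rreach_clean (v : Bool) (S : K' → List Γ') (b : Bool) (n : ℕ) :
    ∃ j, RReach P q₀ verdict ⟨.clean v, S, b, n⟩ ⟨.pop v, fun _ => [], b, n + j⟩ := by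
  obtain ⟨j1, h1⟩ := rreach_clean_stack P q₀ verdict v K'.main b _ S rfl n
  obtain ⟨j2, h2⟩ := rreach_clean_stack P q₀ verdict v K'.rev b _
    (Function.update S K'.main []) rfl (n + j1)
  obtain ⟨j3, h3⟩ := rreach_clean_stack P q₀ verdict v K'.aux b _
    (Function.update (Function.update S K'.main []) K'.rev []) rfl (n + j1 + j2)
  obtain ⟨j4, h4⟩ := rreach_clean_stack P q₀ verdict v K'.stack b _
    (Function.update (Function.update (Function.update S K'.main []) K'.rev []) K'.aux []) rfl
    (n + j1 + j2 + j3)
  have e : Function.update (Function.update (Function.update (Function.update S K'.main [])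
      K'.rev []) K'.aux []) K'.stack [] = fun _ => ([] : List Γ') := by
    funext i; cases i <;> simp
  rw [e] at h4
  refine ⟨j1 + j2 + j3 + j4 + 1, ((h1.trans P q₀ verdict h2).trans P q₀ verdict
    (h3.trans P q₀ verdict h4)).trans P q₀ verdict (RReach.single P q₀ verdict
      ((rstep_eq_some_iff P q₀ verdict (r := .cleanDone v)).2
        ⟨rfl, rfl, fun i o ho => ?_, (b, n + j1 + j2 + j3 + j4 + 1), rfl, ?_⟩))⟩
  · simp only [rguard, Option.some.injEq] at ho
    simp [← ho]
  · simp [rtgt, reff, Nat.add_assoc]

lemma rreach_pop (v : Bool) : ∀ n, RReach P q₀ verdict ⟨.pop v, fun _ => [], true, n⟩ (finalConf v)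
  | 0 => RReach.single P q₀ verdict ((rstep_eq_some_iff P q₀ verdict (r := .popBit v)).2
      ⟨rfl, rfl, fun _ o => by simp [rguard], (false, 0), rfl, rfl⟩)
  | n + 1 => RReach.trans P q₀ verdict (RReach.single P q₀ verdict
      ((rstep_eq_some_iff P q₀ verdict (r := .popFiller v)).2
        ⟨rfl, rfl, fun _ o => by simp [rguard], (true, n), by simp [rtrack], rfl⟩))
      (rreach_pop v n)

/-- A halting run of the decider gives a run to the final configuration with that verdict. -/
theorem rreach_final {w : List ℕ} {v : Bool} {S : K' → List Γ'}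
    (h : Run P (q₀, wordInput w) (verdict v, S)) :
    RReach P q₀ verdict (startConf w) (finalConf v) := by
  obtain ⟨k, hk⟩ := rreach_run P q₀ verdict h true 0
  obtain ⟨j, hj⟩ := rreach_clean P q₀ verdict v S true (0 + k + 1)
  have h0 : RReach P q₀ verdict (startConf w) ⟨.run q₀, wordInput w, true, 0⟩ :=
    RReach.single P q₀ verdict (rstep_some P q₀ verdict (r := .real) (t := (true, 0)) rfl rfl
      (fun _ o => by simp [rguard]) rfl)
  refine ((h0.trans P q₀ verdict hk).trans P q₀ verdict (RReach.single P q₀ verdict
    ((rstep_eq_some_iff P q₀ verdict (r := .halt v)).2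
      ⟨rfl, rfl, fun _ o => by simp [rguard], (true, 0 + k + 1), rfl, rfl⟩))).trans P q₀ verdict
    ((hj.trans P q₀ verdict (rreach_pop P q₀ verdict v _)))

lemma rreach_loadStack (k : K') (b : Bool) : ∀ (l : List Γ') (S : K' → List Γ'), S k = [] →
    ∀ n, ∃ j, RReach P q₀ verdict ⟨.load, S, b, n⟩ ⟨.load, Function.update S k l, b, n + j⟩
  | [], S, hS, n => ⟨0, by
      rw [← hS, Function.update_eq_self]
      exact RReach.refl P q₀ verdict _⟩
  | a :: l, S, hS, n => by
      obtain ⟨j, hj⟩ := rreach_loadStack k b l S hS n
      refine ⟨j + 1, hj.trans P q₀ verdict (RReach.single P q₀ verdict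
        ((rstep_eq_some_iff P q₀ verdict (r := .loadPush k a)).2
          ⟨rfl, rfl, fun _ o => by simp [rguard], (b, n + j + 1), rfl, ?_⟩))⟩
      simp [rtgt, reff, Nat.add_assoc]

lemma rreach_clear (b : Bool) : ∀ (l : List Γ') (n : ℕ), ∃ j,
    RReach P q₀ verdict ⟨.clear, Function.update (fun _ => []) K'.main l, b, n⟩
      ⟨.load, fun _ => [], b, n + j⟩
  | [], n => ⟨1, RReach.single P q₀ verdict
      ((rstep_eq_some_iff P q₀ verdict (r := .clearDone)).2 ⟨rfl, rfl, fun i o ho => by
        simp only [rguard, Option.some.injEq] at ho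
        cases i <;> simp [← ho], (b, n + 1), rfl, by
        simp only [rtgt, reff, RConf.mk.injEq, true_and]
        exact ⟨(funext fun i => by cases i <;> simp), trivial⟩⟩)⟩
  | a :: l, n => by
      obtain ⟨j, hj⟩ := rreach_clear b l (n + 1)
      refine ⟨j + 1, RReach.trans P q₀ verdict (RReach.single P q₀ verdict
        ((rstep_eq_some_iff P q₀ verdict (r := .clearPop a)).2
          ⟨rfl, rfl, ?_, (b, n + 1), rfl, ?_⟩))
        (b := ⟨.clear, Function.update (fun _ => []) K'.main l, b, n + 1⟩)
        (by simpa [Nat.add_assoc, Nat.add_comm 1 j] using hj)⟩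
      · intro i o ho
        simp only [rguard] at ho
        by_cases hi : i = K'.main
        · subst hi
          simp only [Function.update_self, Option.some.injEq] at ho
          simp [← ho]
        · simp [Function.update_of_ne hi] at ho
      · simp [rtgt, reff]

/-- LOAD reaches every configuration of the decider once the track is long enough. -/
theorem rreach_load (w : List ℕ) (q : Q) (S : K' → List Γ') :
    ∃ N, ∀ n, N ≤ n → RReach P q₀ verdict (startConf w) ⟨.run q, S, false, n⟩ := by
  have e : wordInput w = Function.update (fun _ => []) K'.main (w.flatMap block ++ [Γ'.cons]) := by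
    funext i; cases i <;> simp [wordInput, K'.elim]
  have h0 : RReach P q₀ verdict (startConf w)
      ⟨.clear, Function.update (fun _ => []) K'.main (w.flatMap block ++ [Γ'.cons]), false, 0⟩ :=
    RReach.single P q₀ verdict ((rstep_eq_some_iff P q₀ verdict (r := .sand)).2
      ⟨rfl, rfl, fun _ o => by simp [rguard], (false, 0), rfl,
        by simp [rtgt, reff, startConf, e]⟩)
  obtain ⟨c, hc⟩ := rreach_clear P q₀ verdict false (w.flatMap block ++ [Γ'.cons]) 0
  obtain ⟨j1, h1⟩ := rreach_loadStack P q₀ verdict K'.main false (S K'.main) (fun _ => []) rfl (0 + c)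
  obtain ⟨j2, h2⟩ := rreach_loadStack P q₀ verdict K'.rev false (S K'.rev)
    (Function.update (fun _ => []) K'.main (S K'.main)) (by simp) (0 + c + j1)
  obtain ⟨j3, h3⟩ := rreach_loadStack P q₀ verdict K'.aux false (S K'.aux)
    (Function.update (Function.update (fun _ => []) K'.main (S K'.main)) K'.rev (S K'.rev))
    (by simp) (0 + c + j1 + j2)
  obtain ⟨j4, h4⟩ := rreach_loadStack P q₀ verdict K'.stack false (S K'.stack)
    (Function.update (Function.update (Function.update (fun _ => []) K'.main (S K'.main))
      K'.rev (S K'.rev)) K'.aux (S K'.aux)) (by simp) (0 + c + j1 + j2 + j3)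
  have e2 : Function.update (Function.update (Function.update (Function.update (fun _ => [])
      K'.main (S K'.main)) K'.rev (S K'.rev)) K'.aux (S K'.aux)) K'.stack (S K'.stack) = S := by
    funext i; cases i <;> simp
  rw [e2] at h4
  refine ⟨0 + c + j1 + j2 + j3 + j4 + 1, fun n hn => ?_⟩
  obtain ⟨d, rfl⟩ := Nat.exists_eq_add_of_le hn
  refine (((((h0.trans P q₀ verdict hc).trans P q₀ verdict h1).trans P q₀ verdict h2).trans
    P q₀ verdict h3).trans P q₀ verdict h4).trans P q₀ verdict ?_
  refine RReach.trans P q₀ verdict (RReach.single P q₀ verdict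
    ((rstep_eq_some_iff P q₀ verdict (r := .loadGo q)).2
      ⟨rfl, rfl, fun _ o => by simp [rguard],
        (false, 0 + c + j1 + j2 + j3 + j4 + 1), rfl, rfl⟩)) ?_
  exact rreach_wait P q₀ verdict (ph := .run q) rfl S false _ d

/-- What a configuration on a REAL run knows. -/
def RealInv (w : List ℕ) (c : RConf Q) : Prop :=
  match c.ph with
  | .start => c.stk = wordInput w ∧ c.bit = false
  | .clear => c.bit = false
  | .load => c.bit = false
  | .run q => c.bit = true → Run P (q₀, wordInput w) (q, c.stk)
  | .clean v => c.bit = true → ∃ S, Run P (q₀, wordInput w) (verdict v, S)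
  | .pop v => c.bit = true → ∃ S, Run P (q₀, wordInput w) (verdict v, S)
  | .final v => ∃ S, Run P (q₀, wordInput w) (verdict v, S)

lemma realInv_step {w : List ℕ} {r : RRule Q} {c d : RConf Q}
    (h : rstep P q₀ verdict r c = some d) (hc : RealInv P q₀ verdict w c) :
    RealInv P q₀ verdict w d := by
  obtain ⟨hp, hl, hm, t, ht, rfl⟩ := (rstep_eq_some_iff P q₀ verdict).1 h
  obtain ⟨cp, cS, cb, cn⟩ := c
  dsimp only at hp hl hm ht
  subst hp
  cases r with
  | real =>
    simp only [rtrack, Option.ite_none_right_eq_some, Option.some.injEq] at ht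
    obtain ⟨-, rfl⟩ := ht
    simp only [RealInv, RRule.src] at hc
    intro _
    show Run P (q₀, wordInput w) (q₀, cS)
    rw [hc.1]
    exact Relation.ReflTransGen.refl
  | sand =>
    simp only [rtrack, Option.ite_none_right_eq_some, Option.some.injEq] at ht
    obtain ⟨-, rfl⟩ := ht
    rfl
  | clearPop a => simp only [rtrack, Option.some.injEq] at ht; subst ht; exact hc
  | clearDone => simp only [rtrack, Option.some.injEq] at ht; subst ht; exact hc
  | loadPush k a => simp only [rtrack, Option.some.injEq] at ht; subst ht; exact hc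
  | loadGo q =>
    simp only [rtrack, Option.some.injEq] at ht; subst ht
    simp only [RealInv, RRule.src] at hc
    simp [RealInv, rtgt, hc]
  | exec q o =>
    simp only [rtrack, Option.some.injEq] at ht; subst ht
    simp only [RealInv, RRule.src] at hc
    simp only [rlegal] at hl
    simp only [rguard] at hm
    cases hq : P q with
    | push k a q' =>
      simp only [rtgt, reff, hq, RealInv]
      exact fun hb => (hc hb).tail (by simp [step, hq])
    | jump q' =>
      simp only [rtgt, reff, hq, RealInv]
      exact fun hb => (hc hb).tail (by simp [step, hq])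
    | read k next =>
      simp only [hq] at hm
      have ho : (cS k).head? = o := hm k o (by simp)
      simp only [rtgt, reff, hq, RealInv]
      exact fun hb => (hc hb).tail (by simp [step, hq, ho])
    | pop k next =>
      simp only [hq] at hm
      have ho : (cS k).head? = o := hm k o (by simp)
      simp only [rtgt, reff, hq, RealInv]
      exact fun hb => (hc hb).tail (by simp [step, hq, ho])
    | stop => simp [hq] at hl
  | wait ph =>
    simp only [rtrack, Option.some.injEq] at ht; subst ht
    cases ph <;> simp [rlegal, Phase.working] at hl <;> exact hc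
  | halt v =>
    simp only [rtrack, Option.some.injEq] at ht; subst ht
    simp only [RealInv, RRule.src] at hc
    exact fun hb => ⟨cS, hc hb⟩
  | cleanPop v k a => simp only [rtrack, Option.some.injEq] at ht; subst ht; exact hc
  | cleanDone v => simp only [rtrack, Option.some.injEq] at ht; subst ht; exact hc
  | popFiller v =>
    simp only [rtrack, Option.ite_none_right_eq_some, Option.some.injEq] at ht
    obtain ⟨-, rfl⟩ := ht
    exact hc
  | popBit v =>
    simp only [rtrack, Option.ite_none_right_eq_some, Option.some.injEq] at ht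
    obtain ⟨hb, rfl⟩ := ht
    exact hc hb.1

/-- A final configuration is reached only with the verdict of the decider. -/
theorem final_sound {w : List ℕ} {v : Bool} {c : RConf Q}
    (h : RReach P q₀ verdict (startConf w) c) (hc : c.ph = .final v) :
    ∃ S, Run P (q₀, wordInput w) (verdict v, S) := by
  obtain ⟨l, hl⟩ := h
  have key : ∀ (l : List (RRule Q)) (a : RConf Q), RealInv P q₀ verdict w a →
      rpath P q₀ verdict l a = some c → RealInv P q₀ verdict w c := by
    intro l
    induction l with
    | nil => intro a ha h; cases h; exact ha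
    | cons r l ih =>
      intro a ha h
      obtain ⟨d, hd, h'⟩ := Option.bind_eq_some_iff.1 h
      exact ih d (realInv_step P q₀ verdict hd ha) h'
  have := key l (startConf w) ⟨rfl, rfl⟩ hl
  simpa [RealInv, hc] using this

omit [DecidableEq Q] in
/-- A halting configuration is unique. -/
lemma Run.halt_unique {a b b' : Conf K' Γ' Q} (h : Run P a b) (h' : Run P a b')
    (hb : step P b = none) (hb' : step P b' = none) : b = b' := by
  induction h using Relation.ReflTransGen.head_induction_on with
  | refl =>
    rcases Relation.ReflTransGen.cases_head h' with rfl | ⟨c, hc, -⟩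
    · rfl
    · rw [hb] at hc; cases hc
  | @head a c hac _ ih =>
    rcases Relation.ReflTransGen.cases_head h' with rfl | ⟨d, hd, hd'⟩
    · rw [hb'] at hac; cases hac
    · rw [hac] at hd
      cases hd
      exact ih hd'

/-- For a decidable set of words there is a restart machine whose reachable final verdict is
exactly membership. -/
theorem exists_restart_machine {m : ℕ} {p : List (Fin m) → Prop} (hp : ComputablePred p) :
    ∃ (Q : Type) (_ : Fintype Q) (_ : DecidableEq Q) (P : Prog K' Γ' Q) (q₀ : Q)
      (verdict : Bool → Q), Function.Injective verdict ∧ (∀ v, P (verdict v) = .stop) ∧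
      ∀ (w : List (Fin m)) (v : Bool),
        RReach P q₀ verdict (startConf (w.map Fin.val)) (finalConf v) ↔ (v = true ↔ p w) := by
  classical
  obtain ⟨Q, _, _, P, q₀, acc, rej, hne, hacc, hrej, hrun⟩ := exists_word_machine hp
  refine ⟨Q, ‹_›, ‹_›, P, q₀, fun v => if v then acc else rej, ?_, ?_, fun w v => ?_⟩
  · intro a b; cases a <;> cases b <;> simp [hne, hne.symm]
  · intro v; cases v <;> simp [hacc, hrej]
  have hdec : ∃ S, Run P (q₀, wordInput (w.map Fin.val)) (if p w then acc else rej, S) := by
    by_cases hw : p w
    · simpa [hw] using (hrun w).1 hw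
    · simpa [hw] using (hrun w).2 hw
  obtain ⟨S, hS⟩ := hdec
  have hstop : ∀ (q : Q) (S : K' → List Γ'), (q = acc ∨ q = rej) → step P (q, S) = none := by
    rintro q S (rfl | rfl) <;> simp [step, hacc, hrej]
  constructor
  · intro h
    obtain ⟨S', hS'⟩ := final_sound P q₀ _ h rfl
    have e := congrArg Prod.fst (Run.halt_unique P hS' hS
      (hstop _ _ (by cases v <;> simp)) (hstop _ _ (by by_cases hw : p w <;> simp [hw])))
    cases v <;> by_cases hw : p w <;> simp_all [eq_comm]
  · intro hv
    have e : (if p w then acc else rej) = if v then acc else rej := by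
      cases v <;> simp_all
    exact rreach_final P q₀ _ (S := S) (e ▸ hS)

end Vale.Agent.P193.Machine
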